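/-
Row 258, block [CELL] (architect helper132).  API OF THE DYADIC CELLS, file 3: ANTICHAINS, STOPS, PACKING.
Paper: compression.tex l.30-75 ("elementary spatial packing", Lemma "Packing of attempts", "several stopping requirements can be imposed together").

* `cellMaxs S`            : the maximal cells of a finite set (an antichain with the same union);
* `cellFirst T bad`       : the FIRST (= maximal) bad cells of `T`;
* `cellRetained stops I`  : `I` is not below a stop;
* `CellStops R ε stops`   : an antichain of cells `< R` of total length `≤ ε |R|`   (captain's memo #3 (3): the format of all estimates inside an attempt);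
* `cell_path_bound`, `cell_chain_bound` : from a bound along the spatial paths to a length-weighted bound (Tonelli);
* `cell_first_crossing`, `cell_first_crossing_tree`, `cell_crossing_stops` : THE FIRST-CROSSING STOP LEMMA;
* `cell_roots_len`, `cell_attempt_packing`, `cell_restart_sum` : LEMMA "PACKING OF ATTEMPTS";
* `cell_avg_stops`, `cell_avg_stops_real` : Calderon-Zygmund stops for averages.
Filters: a statement whose filter does not depend on bound variables takes `[DecidablePred ..]` as an argument; the others are stated under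
`open Classical` (as in `Defs.lean`, `S5/Base.lean`).
RULES FOR THE OWNER OF A LEAF: fill the `sorry`s IN PLACE (auxiliary lemmas above, prefix `cell_`); do not change a statement without telling
helper132.   LEAVES: P-CELL-F = sections `anti`, `stops`;  P-CELL-G = section `path`;  P-CELL-H = sections `crossing`, `avg`;  P-CELL-I = section `attempt`.
-/
import Claimed.Agent.R258.Pack006

set_option autoImplicit false

open MeasureTheory Finset

namespace Claimed.Agent.R258

/-! ### Antichains and maximal cells -/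

section anti

theorem cell_antichain_pairwiseDisjoint {A : Finset Cell} (hA : IsAntichain (· ≤ ·) (A : Set Cell)) :
    (A : Set Cell).PairwiseDisjoint Cell.set := by
  intro I hI J hJ hne
  exact cell_disjoint_iff.2 ⟨hA hI hJ hne, hA hJ hI hne.symm⟩

theorem cell_volume_antichain_aux {A : Finset Cell} (hA : IsAntichain (· ≤ ·) (A : Set Cell)) :
    volume (⋃ I ∈ A, I.set) = ENNReal.ofReal (∑ I ∈ A, I.len) := by
  rw [measure_biUnion_finset (cell_antichain_pairwiseDisjoint hA) (fun I _ => cell_measurableSet I),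
    ENNReal.ofReal_sum_of_nonneg (fun I _ => cell_len_nonneg I)]
  exact Finset.sum_congr rfl (fun I _ => cell_volume_set I)

/-- **packing**: disjoint cells below `R` have total length at most `|R|` -/
theorem cell_sum_len_antichain_le {R : Cell} {A : Finset Cell} (hA : IsAntichain (· ≤ ·) (A : Set Cell))
    (hle : ∀ I ∈ A, I ≤ R) : ∑ I ∈ A, I.len ≤ R.len := by
  have h1 : volume (⋃ I ∈ A, I.set) ≤ volume R.set :=
    measure_mono (Set.iUnion₂_subset fun I hI => cell_set_subset (hle I hI))
  rw [cell_volume_antichain_aux hA, cell_volume_set] at h1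
  exact (ENNReal.ofReal_le_ofReal_iff (cell_len_nonneg R)).1 h1

theorem cell_volume_antichain {A : Finset Cell} (hA : IsAntichain (· ≤ ·) (A : Set Cell)) :
    volume (⋃ I ∈ A, I.set) = ENNReal.ofReal (∑ I ∈ A, I.len) := by
  exact cell_volume_antichain_aux hA

theorem cell_sum_lintegral_antichain {A : Finset Cell} (hA : IsAntichain (· ≤ ·) (A : Set Cell))
    (f : ℝ → ENNReal) : ∑ I ∈ A, ∫⁻ y in I.set, f y = ∫⁻ y in ⋃ I ∈ A, I.set, f y := by
  rw [lintegral_biUnion_finset (cell_antichain_pairwiseDisjoint hA) (fun I _ => cell_measurableSet I)]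

theorem cell_sum_lintegral_antichain_le {R : Cell} {A : Finset Cell}
    (hA : IsAntichain (· ≤ ·) (A : Set Cell)) (hle : ∀ I ∈ A, I ≤ R) (f : ℝ → ENNReal) :
    ∑ I ∈ A, ∫⁻ y in I.set, f y ≤ ∫⁻ y in R.set, f y := by
  rw [cell_sum_lintegral_antichain hA]
  exact lintegral_mono_set (Set.iUnion₂_subset fun I hI => cell_set_subset (hle I hI))

theorem cell_sum_integral_antichain_le {R : Cell} {A : Finset Cell}
    (hA : IsAntichain (· ≤ ·) (A : Set Cell)) (hle : ∀ I ∈ A, I ≤ R) {f : ℝ → ℝ}
    (hf : IntegrableOn f R.set) (h0 : ∀ y ∈ R.set, 0 ≤ f y) :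
    ∑ I ∈ A, ∫ y in I.set, f y ≤ ∫ y in R.set, f y := by
  have hsub : (⋃ I ∈ A, I.set) ⊆ R.set := Set.iUnion₂_subset fun I hI => cell_set_subset (hle I hI)
  rw [← integral_biUnion_finset A (fun I _ => cell_measurableSet I) (cell_antichain_pairwiseDisjoint hA)
    (fun I hI => hf.mono_set (cell_set_subset (hle I hI)))]
  refine setIntegral_mono_set hf ?_ (Filter.Eventually.of_forall hsub)
  exact (ae_restrict_iff' (cell_measurableSet R)).2 (Filter.Eventually.of_forall h0)

/-- if every member of the antichain `A` is below a member of `B` then `A` is shorter than `B` -/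
theorem cell_sum_len_le_of_below {A B : Finset Cell} (hA : IsAntichain (· ≤ ·) (A : Set Cell))
    (h : ∀ I ∈ A, ∃ K ∈ B, I ≤ K) : ∑ I ∈ A, I.len ≤ ∑ K ∈ B, K.len := by
  classical
  choose! g hgB hg using h
  rw [← Finset.sum_fiberwise_of_maps_to hgB]
  refine Finset.sum_le_sum fun K _ => ?_
  refine cell_sum_len_antichain_le (hA.subset ?_) ?_
  · intro I hI
    exact Finset.mem_coe.2 (Finset.mem_filter.1 (Finset.mem_coe.1 hI)).1
  · intro I hI
    obtain ⟨h1, h2⟩ := Finset.mem_filter.1 hI
    exact h2 ▸ hg I h1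

open Classical in
/-- the maximal cells of a finite set -/
noncomputable def cellMaxs (S : Finset Cell) : Finset Cell := S.filter fun I => ∀ J ∈ S, I ≤ J → J = I

theorem cell_mem_maxs {S : Finset Cell} {I : Cell} : I ∈ cellMaxs S ↔ I ∈ S ∧ ∀ J ∈ S, I ≤ J → J = I := by
  classical
  unfold cellMaxs
  rw [Finset.mem_filter]

theorem cell_maxs_subset (S : Finset Cell) : cellMaxs S ⊆ S := fun _ h => (cell_mem_maxs.1 h).1

theorem cell_maxs_antichain (S : Finset Cell) : IsAntichain (· ≤ ·) (cellMaxs S : Set Cell) := by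
  intro I hI J hJ hne hle
  exact hne ((cell_mem_maxs.1 (Finset.mem_coe.1 hI)).2 J (cell_mem_maxs.1 (Finset.mem_coe.1 hJ)).1 hle).symm

theorem cell_exists_le_maxs {S : Finset Cell} {I : Cell} (hI : I ∈ S) : ∃ K ∈ cellMaxs S, I ≤ K := by
  obtain ⟨K, hIK, hK⟩ := S.exists_le_maximal hI
  refine ⟨K, cell_mem_maxs.2 ⟨hK.prop, fun J hJ hKJ => ?_⟩, hIK⟩
  exact le_antisymm (hK.le_of_ge hJ hKJ) hKJ

theorem cell_below_maxs_iff {S : Finset Cell} {I : Cell} : (∃ K ∈ cellMaxs S, I ≤ K) ↔ ∃ K ∈ S, I ≤ K := by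
  constructor
  · rintro ⟨K, hK, hIK⟩
    exact ⟨K, cell_maxs_subset S hK, hIK⟩
  · rintro ⟨K, hK, hIK⟩
    obtain ⟨K', hK', hKK'⟩ := cell_exists_le_maxs hK
    exact ⟨K', hK', hIK.trans hKK'⟩

theorem cell_maxs_iUnion (S : Finset Cell) : ⋃ K ∈ cellMaxs S, K.set = ⋃ K ∈ S, K.set := by
  apply Set.Subset.antisymm
  · exact Set.iUnion₂_subset fun K hK => Set.subset_biUnion_of_mem (u := Cell.set) (Finset.mem_coe.2 (cell_maxs_subset S hK))
  · refine Set.iUnion₂_subset fun K hK => ?_
    obtain ⟨K', hK', hKK'⟩ := cell_exists_le_maxs hK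
    exact (cell_set_subset hKK').trans (Set.subset_biUnion_of_mem (u := Cell.set) (Finset.mem_coe.2 hK'))

theorem cell_maxs_of_antichain {A : Finset Cell} (hA : IsAntichain (· ≤ ·) (A : Set Cell)) : cellMaxs A = A := by
  ext I
  rw [cell_mem_maxs]
  constructor
  · exact fun h => h.1
  · exact fun hI => ⟨hI, fun J hJ hle => (hA.eq (Finset.mem_coe.2 hI) (Finset.mem_coe.2 hJ) hle).symm⟩

theorem cell_sum_len_maxs_le (S : Finset Cell) : ∑ K ∈ cellMaxs S, K.len ≤ ∑ K ∈ S, K.len := by
  exact Finset.sum_le_sum_of_subset_of_nonneg (cell_maxs_subset S) (fun I _ _ => cell_len_nonneg I)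

theorem cell_sum_len_union_le (A B : Finset Cell) :
    ∑ K ∈ A ∪ B, K.len ≤ ∑ K ∈ A, K.len + ∑ K ∈ B, K.len := by
  rw [← Finset.sum_union_inter]
  exact le_add_of_nonneg_right (Finset.sum_nonneg fun I _ => cell_len_nonneg I)

theorem cell_sum_len_biUnion_le {ι : Type*} (s : Finset ι) (A : ι → Finset Cell) :
    ∑ K ∈ s.biUnion A, K.len ≤ ∑ i ∈ s, ∑ K ∈ A i, K.len := by
  classical
  induction s using Finset.induction_on with
  | empty => simp
  | insert i s hi ih =>
    rw [Finset.biUnion_insert, Finset.sum_insert hi]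
    exact (cell_sum_len_union_le _ _).trans (by gcongr)

theorem cell_sum_len_maxs_union_le (A B : Finset Cell) :
    ∑ K ∈ cellMaxs (A ∪ B), K.len ≤ ∑ K ∈ A, K.len + ∑ K ∈ B, K.len := by
  exact (cell_sum_len_maxs_le _).trans (cell_sum_len_union_le A B)

theorem cell_sum_len_maxs_biUnion_le {ι : Type*} (s : Finset ι) (A : ι → Finset Cell) :
    ∑ K ∈ cellMaxs (s.biUnion A), K.len ≤ ∑ i ∈ s, ∑ K ∈ A i, K.len := by
  exact (cell_sum_len_maxs_le _).trans (cell_sum_len_biUnion_le s A)

end anti

/-! ### Stops -/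

section stops

/-- `I` is retained: it is not below a stop -/
def cellRetained (stops : Finset Cell) (I : Cell) : Prop := ∀ K ∈ stops, ¬ I ≤ K

/-- a family of stops for an attempt at the root `R`: disjoint cells strictly below `R` of total length at most `ε |R|` -/
structure CellStops (R : Cell) (ε : ℝ) (stops : Finset Cell) : Prop where
  lt : ∀ K ∈ stops, K < R
  anti : IsAntichain (· ≤ ·) (stops : Set Cell)
  len : ∑ K ∈ stops, K.len ≤ ε * R.len

theorem cell_retained_empty (I : Cell) : cellRetained ∅ I := by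
  intro K hK
  simp at hK

theorem cell_stops_empty (R : Cell) {ε : ℝ} (hε : 0 ≤ ε) : CellStops R ε ∅ := by
  refine ⟨fun K hK => absurd hK (Finset.notMem_empty K), ?_, ?_⟩
  · simp
  · simpa using mul_nonneg hε (cell_len_nonneg R)

/-- the retained cells are closed upwards -/
theorem cellRetained.of_le {stops : Finset Cell} {I J : Cell} (h : cellRetained stops I) (hIJ : I ≤ J) :
    cellRetained stops J := fun K hK hJK => h K hK (le_trans hIJ hJK)

theorem cellRetained.mono {A B : Finset Cell} {I : Cell} (h : cellRetained B I) (hAB : A ⊆ B) :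
    cellRetained A I := fun K hK => h K (hAB hK)

theorem cell_retained_maxs {S : Finset Cell} {I : Cell} : cellRetained (cellMaxs S) I ↔ cellRetained S I := by
  constructor
  · intro h K hK hIK
    obtain ⟨K', hK', hKK'⟩ := cell_exists_le_maxs hK
    exact h K' hK' (hIK.trans hKK')
  · exact fun h => h.mono (cell_maxs_subset S)

theorem cell_retained_union {A B : Finset Cell} {I : Cell} :
    cellRetained (A ∪ B) I ↔ cellRetained A I ∧ cellRetained B I := by
  constructor
  · exact fun h => ⟨h.mono Finset.subset_union_left, h.mono Finset.subset_union_right⟩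
  · rintro ⟨h1, h2⟩ K hK
    rcases Finset.mem_union.1 hK with hK | hK
    · exact h1 K hK
    · exact h2 K hK

theorem cell_retained_biUnion {ι : Type*} {s : Finset ι} {A : ι → Finset Cell} {I : Cell} :
    cellRetained (s.biUnion A) I ↔ ∀ i ∈ s, cellRetained (A i) I := by
  constructor
  · exact fun h i hi => h.mono (Finset.subset_biUnion_of_mem A hi)
  · intro h K hK
    obtain ⟨i, hi, hKi⟩ := Finset.mem_biUnion.1 hK
    exact h i hi K hKi

/-- the root is retained -/
theorem CellStops.retained_root {R : Cell} {ε : ℝ} {stops : Finset Cell} (h : CellStops R ε stops) :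
    cellRetained stops R := by
  exact fun K hK hle => absurd hle (not_le_of_gt (h.lt K hK))

/-- a cell strictly above a stop is retained -/
theorem cell_retained_of_stop_lt {stops : Finset Cell} (ha : IsAntichain (· ≤ ·) (stops : Set Cell)) {K I : Cell}
    (hK : K ∈ stops) (h : K < I) : cellRetained stops I := by
  intro K' hK' hle
  have hlt : K < K' := lt_of_lt_of_le h hle
  exact ha (Finset.mem_coe.2 hK) (Finset.mem_coe.2 hK') hlt.ne hlt.le

theorem CellStops.mono {R : Cell} {ε ε' : ℝ} {stops : Finset Cell} (h : CellStops R ε stops) (hε : ε ≤ ε') :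
    CellStops R ε' stops := by
  exact ⟨h.lt, h.anti, h.len.trans (mul_le_mul_of_nonneg_right hε (cell_len_nonneg R))⟩

/-- **several stopping requirements can be imposed together** -/
theorem CellStops.union {R : Cell} {ε ε' : ℝ} {A B : Finset Cell} (hA : CellStops R ε A) (hB : CellStops R ε' B) :
    CellStops R (ε + ε') (cellMaxs (A ∪ B)) := by
  refine ⟨fun K hK => ?_, cell_maxs_antichain _, ?_⟩
  · rcases Finset.mem_union.1 (cell_maxs_subset _ hK) with h | h
    · exact hA.lt K h
    · exact hB.lt K h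
  · rw [add_mul]
    exact (cell_sum_len_maxs_union_le A B).trans (add_le_add hA.len hB.len)

theorem CellStops.biUnion {ι : Type*} {R : Cell} {s : Finset ι} {ε : ι → ℝ} {A : ι → Finset Cell}
    (h : ∀ i ∈ s, CellStops R (ε i) (A i)) : CellStops R (∑ i ∈ s, ε i) (cellMaxs (s.biUnion A)) := by
  refine ⟨fun K hK => ?_, cell_maxs_antichain _, ?_⟩
  · obtain ⟨i, hi, hKi⟩ := Finset.mem_biUnion.1 (cell_maxs_subset _ hK)
    exact (h i hi).lt K hKi
  · rw [Finset.sum_mul]
    exact (cell_sum_len_maxs_biUnion_le s A).trans (Finset.sum_le_sum fun i hi => (h i hi).len)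

/-- a cell below `R` is retained or below exactly one stop -/
theorem cell_stop_unique {stops : Finset Cell} (ha : IsAntichain (· ≤ ·) (stops : Set Cell)) {I K K' : Cell}
    (hK : K ∈ stops) (hK' : K' ∈ stops) (h : I ≤ K) (h' : I ≤ K') : K = K' := by
  rcases cell_chain h h' with h1 | h1
  · exact ha.eq (Finset.mem_coe.2 hK) (Finset.mem_coe.2 hK') h1
  · exact (ha.eq (Finset.mem_coe.2 hK') (Finset.mem_coe.2 hK) h1).symm

open Classical in
/-- **decomposition of a sum over the cells below `R`**: retained cells, and the cells below each stop -/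
theorem cell_sum_stops {M : Type*} [AddCommMonoid M] {R : Cell} {stops : Finset Cell}
    (hle : ∀ K ∈ stops, K ≤ R) (ha : IsAntichain (· ≤ ·) (stops : Set Cell)) (S : Finset Cell) (c : Cell → M) :
    ∑ I ∈ S.filter (fun I => I ≤ R), c I =
      ∑ I ∈ S.filter (fun I => I ≤ R ∧ cellRetained stops I), c I +
        ∑ K ∈ stops, ∑ I ∈ S.filter (fun I => I ≤ K), c I := by
  have h1 : S.filter (fun I => I ≤ R) = S.filter (fun I => I ≤ R ∧ cellRetained stops I) ∪
      stops.biUnion (fun K => S.filter (fun I => I ≤ K)) := by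
    ext I
    simp only [Finset.mem_filter, Finset.mem_union, Finset.mem_biUnion]
    constructor
    · rintro ⟨hS, hR⟩
      by_cases hr : cellRetained stops I
      · exact Or.inl ⟨hS, hR, hr⟩
      · unfold cellRetained at hr
        push Not at hr
        obtain ⟨K, hK, hIK⟩ := hr
        exact Or.inr ⟨K, hK, hS, hIK⟩
    · rintro (⟨hS, hR, _⟩ | ⟨K, hK, hS, hIK⟩)
      · exact ⟨hS, hR⟩
      · exact ⟨hS, hIK.trans (hle K hK)⟩
  rw [h1, Finset.sum_union, Finset.sum_biUnion]
  · intro K hK K' hK' hne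
    refine Finset.disjoint_left.2 fun I hI hI' => hne ?_
    exact cell_stop_unique ha (Finset.mem_coe.1 hK) (Finset.mem_coe.1 hK') (Finset.mem_filter.1 hI).2
      (Finset.mem_filter.1 hI').2
  · refine Finset.disjoint_left.2 fun I hI hI' => ?_
    obtain ⟨K, hK, hIK⟩ := Finset.mem_biUnion.1 hI'
    exact (Finset.mem_filter.1 hI).2.2 K hK (Finset.mem_filter.1 hIK).2

open Classical in
/-- the FIRST bad cells of `T` -/
noncomputable def cellFirst (T : Finset Cell) (bad : Cell → Prop) : Finset Cell := cellMaxs (T.filter bad)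

theorem cell_first_subset (T : Finset Cell) (bad : Cell → Prop) : cellFirst T bad ⊆ T := by
  classical
  exact fun K hK => (Finset.mem_filter.1 (cell_maxs_subset _ hK)).1

theorem cell_first_bad {T : Finset Cell} {bad : Cell → Prop} {K : Cell} (hK : K ∈ cellFirst T bad) : bad K := by
  classical
  exact (Finset.mem_filter.1 (cell_maxs_subset _ hK)).2

theorem cell_first_antichain (T : Finset Cell) (bad : Cell → Prop) :
    IsAntichain (· ≤ ·) (cellFirst T bad : Set Cell) := cell_maxs_antichain _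

/-- the retained cells of `T` are good -/
theorem cell_first_retained {T : Finset Cell} {bad : Cell → Prop} {I : Cell} (hI : I ∈ T)
    (h : cellRetained (cellFirst T bad) I) : ¬ bad I := by
  classical
  intro hb
  exact (cell_retained_maxs.1 h) I (Finset.mem_filter.2 ⟨hI, hb⟩) le_rfl

theorem cell_first_retained_iff {T : Finset Cell} {bad : Cell → Prop} {I : Cell} :
    cellRetained (cellFirst T bad) I ↔ ∀ K ∈ T, I ≤ K → ¬ bad K := by
  classical
  unfold cellFirst
  rw [cell_retained_maxs]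
  constructor
  · exact fun h K hK hIK hb => h K (Finset.mem_filter.2 ⟨hK, hb⟩) hIK
  · intro h K hK hIK
    obtain ⟨h1, h2⟩ := Finset.mem_filter.1 hK
    exact h K h1 hIK h2

/-- the cells of `T` strictly above a first bad cell are good -/
theorem cell_first_above {T : Finset Cell} {bad : Cell → Prop} {K I : Cell} (hK : K ∈ cellFirst T bad)
    (hI : I ∈ T) (h : K < I) : ¬ bad I := by
  classical
  intro hb
  have h1 := (cell_mem_maxs.1 hK).2 I (Finset.mem_filter.2 ⟨hI, hb⟩) h.le
  exact h.ne h1.symm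

end stops

/-! ### Path sums and length-weighted sums -/

section path

theorem cell_integrable_indicator_const (I : Cell) (c : ℝ) :
    Integrable (I.set.indicator fun _ => c) := by
  rw [integrable_indicator_iff (cell_measurableSet I)]
  exact integrableOn_const (cell_volume_ne_top I)

theorem cell_integrable_path_sum (S : Finset Cell) (a : Cell → ℝ) :
    Integrable (fun y => ∑ I ∈ S, I.set.indicator (fun _ => a I) y) :=
  integrable_finsetSum S fun I _ => cell_integrable_indicator_const I (a I)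

/-- Tonelli for finite sums -/
theorem cell_sum_len_mul_eq_integral (S : Finset Cell) (a : Cell → ℝ) :
    ∑ I ∈ S, I.len * a I = ∫ y, ∑ I ∈ S, I.set.indicator (fun _ => a I) y := by
  rw [integral_finsetSum S fun I _ => cell_integrable_indicator_const I (a I)]
  refine Finset.sum_congr rfl fun I _ => ?_
  rw [integral_indicator (cell_measurableSet I), cell_integral_const]

theorem cell_sum_len_mul_eq_setIntegral {J : Cell} {S : Finset Cell} (hS : ∀ I ∈ S, I ≤ J) (a : Cell → ℝ) :
    ∑ I ∈ S, I.len * a I = ∫ y in J.set, ∑ I ∈ S, I.set.indicator (fun _ => a I) y := by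
  rw [cell_sum_len_mul_eq_integral]
  refine (setIntegral_eq_integral_of_forall_compl_eq_zero fun y hy => ?_).symm
  refine Finset.sum_eq_zero fun I hI => ?_
  exact Set.indicator_of_notMem (fun h => hy (cell_set_subset (hS I hI) h)) _

/-- **from a bound along the spatial paths to a length-weighted bound** (almost everywhere form) -/
theorem cell_path_bound_ae {J : Cell} {S : Finset Cell} (hS : ∀ I ∈ S, I ≤ J) (a : Cell → ℝ) {A : ℝ}
    (h : ∀ᵐ y, y ∈ J.set → ∑ I ∈ S, I.set.indicator (fun _ => a I) y ≤ A) :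
    ∑ I ∈ S, I.len * a I ≤ A * J.len := by
  rw [cell_sum_len_mul_eq_setIntegral hS, mul_comm A, ← cell_integral_const]
  exact setIntegral_mono_on_ae (cell_integrable_path_sum S a).integrableOn
    (integrableOn_const (cell_volume_ne_top J)) (cell_measurableSet J) h

theorem cell_path_bound {J : Cell} {S : Finset Cell} (hS : ∀ I ∈ S, I ≤ J) (a : Cell → ℝ) {A : ℝ}
    (h : ∀ y ∈ J.set, ∑ I ∈ S, I.set.indicator (fun _ => a I) y ≤ A) :
    ∑ I ∈ S, I.len * a I ≤ A * J.len :=
  cell_path_bound_ae hS a (Filter.Eventually.of_forall h)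

/-- the path sum at a point is the sum over the members above the smallest member at this point -/
theorem cell_path_sum_eq {S : Finset Cell} (a : Cell → ℝ) {L : Cell} {y : ℝ} (hL : L ∈ S) (hy : y ∈ L.set)
    (hmin : ∀ I ∈ S, y ∈ I.set → L ≤ I) [DecidablePred fun I : Cell => L ≤ I] :
    ∑ I ∈ S, I.set.indicator (fun _ => a I) y = ∑ I ∈ S.filter (fun I => L ≤ I), a I := by
  rw [Finset.sum_filter]
  refine Finset.sum_congr rfl fun I hI => ?_
  split_ifs with h
  · exact Set.indicator_of_mem (cell_set_subset h hy) _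
  · exact Set.indicator_of_notMem (fun hyI => h (hmin I hI hyI)) _

open Classical in
/-- the smallest member of `S` at a point -/
theorem cell_exists_min_at {S : Finset Cell} {y : ℝ} (h : ∃ I ∈ S, y ∈ I.set) :
    ∃ L ∈ S, y ∈ L.set ∧ ∀ I ∈ S, y ∈ I.set → L ≤ I := by
  obtain ⟨I0, hI0, hy0⟩ := h
  obtain ⟨L, hL⟩ := (S.filter fun I => y ∈ I.set).exists_minimal ⟨I0, Finset.mem_filter.2 ⟨hI0, hy0⟩⟩
  obtain ⟨hLS, hLy⟩ := Finset.mem_filter.1 hL.prop
  refine ⟨L, hLS, hLy, fun I hI hyI => ?_⟩
  rcases cell_le_or_le_of_mem hLy hyI with h1 | h1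
  · exact h1
  · exact hL.le_of_le (Finset.mem_filter.2 ⟨hI, hyI⟩) h1

open Classical in
theorem cell_chain_bound_aux {J : Cell} {S : Finset Cell} (hS : ∀ I ∈ S, I ≤ J) (a : Cell → ℝ) {A : ℝ}
    (hA : 0 ≤ A ∨ J ∈ S)
    (h : ∀ L ∈ S, ∑ I ∈ S.filter (fun I => L ≤ I), a I ≤ A) : ∑ I ∈ S, I.len * a I ≤ A * J.len := by
  refine cell_path_bound hS a fun y hy => ?_
  by_cases hex : ∃ I ∈ S, y ∈ I.set
  · obtain ⟨L, hL, hLy, hmin⟩ := cell_exists_min_at hex
    rw [cell_path_sum_eq a hL hLy hmin]
    exact h L hL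
  · rcases hA with hA | hA
    · refine le_trans (le_of_eq ?_) hA
      refine Finset.sum_eq_zero fun I hI => ?_
      exact Set.indicator_of_notMem (fun hyI => hex ⟨I, hI, hyI⟩) _
    · exact absurd ⟨J, hA, hy⟩ hex

open Classical in
/-- **combinatorial form**: a bound along all chains of `S` -/
theorem cell_chain_bound {J : Cell} {S : Finset Cell} (hS : ∀ I ∈ S, I ≤ J) (a : Cell → ℝ) {A : ℝ} (hA : 0 ≤ A)
    (h : ∀ L ∈ S, ∑ I ∈ S.filter (fun I => L ≤ I), a I ≤ A) : ∑ I ∈ S, I.len * a I ≤ A * J.len := by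
  exact cell_chain_bound_aux hS a (Or.inl hA) h

/-- in a rooted tree the members above `I` are the path to the root -/
theorem cell_filter_le_eq_Icc {R : Cell} {T : Finset Cell} (hT : RootedTree R T) {I : Cell} (hI : I ∈ T)
    [DecidablePred fun J : Cell => I ≤ J] : T.filter (fun J => I ≤ J) = Finset.Icc I R := by
  ext J
  rw [Finset.mem_filter, Finset.mem_Icc]
  constructor
  · exact fun h => ⟨h.2, hT.le_root J h.1⟩
  · exact fun h => ⟨hT.conv I hI J h.1 h.2, h.1⟩

/-- the same for a rooted tree, with the paths `Finset.Icc L R` -/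
theorem cell_tree_bound {R : Cell} {T : Finset Cell} (hT : RootedTree R T) (a : Cell → ℝ) {A : ℝ}
    (h : ∀ L ∈ T, ∑ I ∈ Finset.Icc L R, a I ≤ A) : ∑ I ∈ T, I.len * a I ≤ A * R.len := by
  classical
  refine cell_chain_bound_aux hT.le_root a (Or.inr hT.root_mem) fun L hL => ?_
  rw [cell_filter_le_eq_Icc hT hL]
  exact h L hL

open Classical in
/-- double counting: an antichain `A` against a family `S` -/
theorem cell_sum_antichain_comm (A S : Finset Cell) (a : Cell → ℝ) :
    ∑ K ∈ A, K.len * ∑ J ∈ S.filter (fun J => K ≤ J), a J =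
      ∑ J ∈ S, a J * ∑ K ∈ A.filter (fun K => K ≤ J), K.len := by
  simp only [Finset.mul_sum, Finset.sum_filter]
  rw [Finset.sum_comm]
  refine Finset.sum_congr rfl fun J _ => Finset.sum_congr rfl fun K _ => ?_
  split_ifs
  · ring
  · ring

open Classical in
theorem cell_sum_antichain_le {A S : Finset Cell} (hA : IsAntichain (· ≤ ·) (A : Set Cell)) {a : Cell → ℝ}
    (ha : ∀ J ∈ S, 0 ≤ a J) :
    ∑ K ∈ A, K.len * ∑ J ∈ S.filter (fun J => K ≤ J), a J ≤ ∑ J ∈ S, J.len * a J := by
  rw [cell_sum_antichain_comm]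
  refine Finset.sum_le_sum fun J hJ => ?_
  rw [mul_comm]
  refine mul_le_mul_of_nonneg_right ?_ (ha J hJ)
  refine cell_sum_len_antichain_le (hA.subset ?_) fun K hK => (Finset.mem_filter.1 hK).2
  intro K hK
  exact Finset.mem_coe.2 (Finset.mem_filter.1 (Finset.mem_coe.1 hK)).1

end path

/-! ### The first-crossing stop lemma -/

section crossing

open Classical in
/-- the members of `S` above an arbitrary cell `I` are the members above the smallest of them -/
theorem cell_filter_le_eq_of_nonempty {S : Finset Cell} {I : Cell} (h : ∃ J ∈ S, I ≤ J) :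
    ∃ L ∈ S, I ≤ L ∧ S.filter (fun J => I ≤ J) = S.filter (fun J => L ≤ J) := by
  obtain ⟨J0, hJ0, hI0⟩ := h
  obtain ⟨L, hL⟩ := (S.filter fun J => I ≤ J).exists_minimal ⟨J0, Finset.mem_filter.2 ⟨hJ0, hI0⟩⟩
  obtain ⟨hLS, hIL⟩ := Finset.mem_filter.1 hL.prop
  refine ⟨L, hLS, hIL, ?_⟩
  ext J
  rw [Finset.mem_filter, Finset.mem_filter]
  refine and_congr_right fun hJ => ⟨fun hIJ => ?_, fun hLJ => hIL.trans hLJ⟩
  rcases cell_chain hIL hIJ with h1 | h1
  · exact h1
  · exact hL.le_of_le (Finset.mem_filter.2 ⟨hJ, hIJ⟩) h1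

open Classical in
/-- **FIRST-CROSSING STOPS.**  `a ≥ 0` on the finite family `S`.  The first cells of `S` at which the partial ancestor sum
`∑_{J ∈ S, J ≥ K} a_J` exceeds `T` are disjoint, `T ∑ |K| ≤ ∑_S |I| a_I`, and at EVERY cell which is not below one of them the partial
ancestor sum is `≤ T`. -/
theorem cell_first_crossing {S : Finset Cell} {a : Cell → ℝ} (ha : ∀ I ∈ S, 0 ≤ a I) {T : ℝ} (hT : 0 ≤ T) :
    ∃ stops : Finset Cell, stops ⊆ S ∧ IsAntichain (· ≤ ·) (stops : Set Cell) ∧
      T * ∑ K ∈ stops, K.len ≤ ∑ I ∈ S, I.len * a I ∧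
      (∀ K ∈ stops, T < ∑ J ∈ S.filter (fun J => K ≤ J), a J) ∧
      ∀ I, cellRetained stops I → ∑ J ∈ S.filter (fun J => I ≤ J), a J ≤ T := by
  set bad : Cell → Prop := fun K => T < ∑ J ∈ S.filter (fun J => K ≤ J), a J with hbad
  refine ⟨cellFirst S bad, cell_first_subset S bad, cell_first_antichain S bad, ?_,
    fun K hK => cell_first_bad hK, fun I hI => ?_⟩
  · refine le_trans ?_ (cell_sum_antichain_le (cell_first_antichain S bad) ha)
    rw [Finset.mul_sum]
    refine Finset.sum_le_sum fun K hK => ?_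
    rw [mul_comm]
    exact mul_le_mul_of_nonneg_left (le_of_lt (cell_first_bad hK)) (cell_len_nonneg K)
  · by_cases hex : ∃ J ∈ S, I ≤ J
    · obtain ⟨L, hL, hIL, heq⟩ := cell_filter_le_eq_of_nonempty hex
      rw [heq]
      exact not_lt.1 (cell_first_retained_iff.1 hI L hL hIL)
    · have he : S.filter (fun J => I ≤ J) = ∅ :=
        Finset.filter_eq_empty_iff.2 fun J hJ hIJ => hex ⟨J, hJ, hIJ⟩
      rw [he, Finset.sum_empty]
      exact hT

/-- the same in a rooted tree, with the paths `Finset.Icc I R` -/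
theorem cell_first_crossing_tree {R : Cell} {Tr : Finset Cell} (hTr : RootedTree R Tr) {a : Cell → ℝ}
    (ha : ∀ I ∈ Tr, 0 ≤ a I) {T : ℝ} (hT : 0 ≤ T) :
    ∃ stops : Finset Cell, stops ⊆ Tr ∧ IsAntichain (· ≤ ·) (stops : Set Cell) ∧
      T * ∑ K ∈ stops, K.len ≤ ∑ I ∈ Tr, I.len * a I ∧
      (∀ K ∈ stops, T < ∑ J ∈ Finset.Icc K R, a J) ∧
      ∀ I ∈ Tr, cellRetained stops I → ∑ J ∈ Finset.Icc I R, a J ≤ T := by
  classical
  obtain ⟨stops, h1, h2, h3, h4, h5⟩ := cell_first_crossing ha hT
  refine ⟨stops, h1, h2, h3, fun K hK => ?_, fun I hI hr => ?_⟩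
  · rw [← cell_filter_le_eq_Icc hTr (h1 hK)]
    exact h4 K hK
  · rw [← cell_filter_le_eq_Icc hTr hI]
    exact h5 I hr

/-- an antichain of cells `≤ R` of total length `≤ ε |R|`, `ε < 1`, is a family of stops -/
theorem cell_stops_of_le {R : Cell} {ε : ℝ} (hε1 : ε < 1) {stops : Finset Cell} (hle : ∀ K ∈ stops, K ≤ R)
    (ha : IsAntichain (· ≤ ·) (stops : Set Cell)) (hlen : ∑ K ∈ stops, K.len ≤ ε * R.len) :
    CellStops R ε stops := by
  refine ⟨fun K hK => lt_of_le_of_ne (hle K hK) ?_, ha, hlen⟩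
  rintro rfl
  have h1 : K.len ≤ ∑ K' ∈ stops, K'.len :=
    Finset.single_le_sum (f := fun K' : Cell => K'.len) (fun I _ => cell_len_nonneg I) hK
  have h2 : ε * K.len < 1 * K.len := mul_lt_mul_of_pos_right hε1 (cell_len_pos K)
  linarith

open Classical in
/-- **the format of memo #3**: `∑_S |I| a_I ≤ E |R|`, `0 < ε < 1`, `a_I ≤ E / ε` is NOT assumed: the root itself may cross only if
`E / ε < a_R`, which is excluded by the length bound `ε |R| < |R|`. -/
theorem cell_crossing_stops {R : Cell} {S : Finset Cell} (hS : ∀ I ∈ S, I ≤ R) {a : Cell → ℝ}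
    (ha : ∀ I ∈ S, 0 ≤ a I) {E ε : ℝ} (hE : 0 ≤ E) (hε : 0 < ε) (hε1 : ε < 1)
    (hsum : ∑ I ∈ S, I.len * a I ≤ E * R.len) :
    ∃ stops : Finset Cell, stops ⊆ S ∧ CellStops R ε stops ∧
      ∀ I, cellRetained stops I → ∑ J ∈ S.filter (fun J => I ≤ J), a J ≤ E / ε := by
  rcases hE.eq_or_lt with hE0 | hE0
  · subst hE0
    refine ⟨∅, Finset.empty_subset _, cell_stops_empty R hε.le, fun I _ => ?_⟩
    rw [zero_mul] at hsum
    have hz : ∀ J ∈ S, J.len * a J = 0 :=
      (Finset.sum_eq_zero_iff_of_nonneg fun J hJ => mul_nonneg (cell_len_nonneg J) (ha J hJ)).1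
        (le_antisymm hsum (Finset.sum_nonneg fun J hJ => mul_nonneg (cell_len_nonneg J) (ha J hJ)))
    rw [zero_div]
    refine le_of_eq (Finset.sum_eq_zero fun J hJ => ?_)
    rcases mul_eq_zero.1 (hz J (Finset.mem_filter.1 hJ).1) with h | h
    · exact absurd h (cell_len_ne_zero J)
    · exact h
  · obtain ⟨stops, h1, h2, h3, _, h5⟩ := cell_first_crossing ha (div_nonneg hE hε.le)
    refine ⟨stops, h1, cell_stops_of_le hε1 (fun K hK => hS K (h1 hK)) h2 ?_, h5⟩
    have h6 : E / ε * ∑ K ∈ stops, K.len ≤ E * R.len := h3.trans hsum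
    have h7 : E * ∑ K ∈ stops, K.len ≤ E * (ε * R.len) := by
      have := mul_le_mul_of_nonneg_left h6 hε.le
      calc E * ∑ K ∈ stops, K.len = ε * (E / ε * ∑ K ∈ stops, K.len) := by
            field_simp
        _ ≤ ε * (E * R.len) := this
        _ = E * (ε * R.len) := by ring
    exact le_of_mul_le_mul_left h7 hE0

end crossing

/-! ### Stops for averages -/

section avg

/-- **Calderon-Zygmund stops**: the first cells of `T` on which the average of `f` exceeds `lam` -/
theorem cell_avg_stops {R : Cell} {T : Finset Cell} (hT : ∀ I ∈ T, I ≤ R) (f : ℝ → ENNReal) (lam : ENNReal) :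
    ∃ stops : Finset Cell, stops ⊆ T ∧ IsAntichain (· ≤ ·) (stops : Set Cell) ∧
      (∀ K ∈ stops, lam * ENNReal.ofReal K.len < ∫⁻ y in K.set, f y) ∧
      (∀ I ∈ T, cellRetained stops I → ∫⁻ y in I.set, f y ≤ lam * ENNReal.ofReal I.len) ∧
      lam * ENNReal.ofReal (∑ K ∈ stops, K.len) ≤ ∫⁻ y in R.set, f y := by
  classical
  set bad : Cell → Prop := fun K => lam * ENNReal.ofReal K.len < ∫⁻ y in K.set, f y with hbad
  refine ⟨cellFirst T bad, cell_first_subset T bad, cell_first_antichain T bad,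
    fun K hK => cell_first_bad hK, fun I hI hr => not_lt.1 (cell_first_retained hI hr), ?_⟩
  rw [ENNReal.ofReal_sum_of_nonneg (fun I _ => cell_len_nonneg I), Finset.mul_sum]
  refine le_trans (Finset.sum_le_sum fun K hK => le_of_lt (cell_first_bad hK)) ?_
  exact cell_sum_lintegral_antichain_le (cell_first_antichain T bad)
    (fun K hK => hT K (cell_first_subset T bad hK)) f

theorem cell_avg_stops_real {R : Cell} {T : Finset Cell} (hT : ∀ I ∈ T, I ≤ R) {f : ℝ → ℝ}
    (hf : IntegrableOn f R.set) (h0 : ∀ y ∈ R.set, 0 ≤ f y) (lam : ℝ) :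
    ∃ stops : Finset Cell, stops ⊆ T ∧ IsAntichain (· ≤ ·) (stops : Set Cell) ∧
      (∀ K ∈ stops, lam * K.len < ∫ y in K.set, f y) ∧
      (∀ I ∈ T, cellRetained stops I → ∫ y in I.set, f y ≤ lam * I.len) ∧
      lam * ∑ K ∈ stops, K.len ≤ ∫ y in R.set, f y := by
  classical
  set bad : Cell → Prop := fun K => lam * K.len < ∫ y in K.set, f y with hbad
  refine ⟨cellFirst T bad, cell_first_subset T bad, cell_first_antichain T bad,
    fun K hK => cell_first_bad hK, fun I hI hr => not_lt.1 (cell_first_retained hI hr), ?_⟩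
  rw [Finset.mul_sum]
  refine le_trans (Finset.sum_le_sum fun K hK => le_of_lt (cell_first_bad hK)) ?_
  exact cell_sum_integral_antichain_le (cell_first_antichain T bad)
    (fun K hK => hT K (cell_first_subset T bad hK)) hf h0

/-- the format of memo #3: the average of `f ≥ 0` on the root is `≤ m`; stops where the average exceeds `m / ε` -/
theorem cell_avg_stops_eps {R : Cell} {T : Finset Cell} (hT : ∀ I ∈ T, I ≤ R) {f : ℝ → ℝ}
    (hf : IntegrableOn f R.set) (h0 : ∀ y ∈ R.set, 0 ≤ f y) {m ε : ℝ} (hm : 0 ≤ m) (hε : 0 < ε) (hε1 : ε < 1)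
    (hR : ∫ y in R.set, f y ≤ m * R.len) :
    ∃ stops : Finset Cell, stops ⊆ T ∧ CellStops R ε stops ∧
      ∀ I ∈ T, cellRetained stops I → ∫ y in I.set, f y ≤ m / ε * I.len := by
  rcases hm.eq_or_lt with hm0 | hm0
  · subst hm0
    refine ⟨∅, Finset.empty_subset _, cell_stops_empty R hε.le, fun I hI _ => ?_⟩
    rw [zero_mul] at hR
    rw [zero_div, zero_mul]
    refine le_trans ?_ hR
    refine setIntegral_mono_set hf ?_ (Filter.Eventually.of_forall (cell_set_subset (hT I hI)))
    exact (ae_restrict_iff' (cell_measurableSet R)).2 (Filter.Eventually.of_forall h0)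
  · obtain ⟨stops, h1, h2, _, h4, h5⟩ := cell_avg_stops_real hT hf h0 (m / ε)
    refine ⟨stops, h1, cell_stops_of_le hε1 (fun K hK => hT K (h1 hK)) h2 ?_, h4⟩
    have h6 : m / ε * ∑ K ∈ stops, K.len ≤ m * R.len := h5.trans hR
    have h7 : m * ∑ K ∈ stops, K.len ≤ m * (ε * R.len) := by
      have := mul_le_mul_of_nonneg_left h6 hε.le
      calc m * ∑ K ∈ stops, K.len = ε * (m / ε * ∑ K ∈ stops, K.len) := by
            field_simp
        _ ≤ ε * (m * R.len) := this
        _ = m * (ε * R.len) := by ring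
    exact le_of_mul_le_mul_left h7 hm0

end avg

/-! ### Packing of attempts -/

section attempt

/-- **Lemma "Packing of attempts", first assertion.**  `roots` = all roots; every root except `J` is a child root of a root. -/
theorem cell_roots_len {ρ : ℝ} (hρ1 : ρ < 1) (J : Cell) (roots : Finset Cell) (ch : Cell → Finset Cell)
    (hroots : ∀ R' ∈ roots, R' = J ∨ ∃ R ∈ roots, R' ∈ ch R)
    (hlen : ∀ R ∈ roots, ∑ R' ∈ ch R, R'.len ≤ ρ * R.len) : ∑ R ∈ roots, R.len ≤ J.len / (1 - ρ) := by
  classical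
  have h1 : roots ⊆ {J} ∪ roots.biUnion ch := by
    intro R' hR'
    rcases hroots R' hR' with h | ⟨R, hR, h⟩
    · exact Finset.mem_union_left _ (Finset.mem_singleton.2 h)
    · exact Finset.mem_union_right _ (Finset.mem_biUnion.2 ⟨R, hR, h⟩)
  have h2 : ∑ R ∈ roots, R.len ≤ J.len + ρ * ∑ R ∈ roots, R.len := by
    calc ∑ R ∈ roots, R.len ≤ ∑ R ∈ {J} ∪ roots.biUnion ch, R.len :=
          Finset.sum_le_sum_of_subset_of_nonneg h1 (fun I _ _ => cell_len_nonneg I)
      _ ≤ ∑ R ∈ ({J} : Finset Cell), R.len + ∑ R ∈ roots.biUnion ch, R.len := cell_sum_len_union_le _ _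
      _ ≤ J.len + ∑ R ∈ roots, ∑ R' ∈ ch R, R'.len := by
          rw [Finset.sum_singleton]
          exact add_le_add le_rfl (cell_sum_len_biUnion_le roots ch)
      _ ≤ J.len + ρ * ∑ R ∈ roots, R.len := by
          rw [Finset.mul_sum]
          exact add_le_add le_rfl (Finset.sum_le_sum hlen)
  rw [le_div_iff₀ (by linarith)]
  nlinarith

/-- **Lemma "Packing of attempts", recursive form.**  `P R` = "the hypotheses of the attempt are valid at the root `R`", `F R` = the total
contribution below `R`.  One attempt: `F R ≤ A |R| + ∑ F R'` over child roots `R' < R` with `P R'` of total length `≤ ρ |R|`.  `F` is harmless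
at the cells of depth `≥ s1` (all trees are finite). -/
theorem cell_attempt_packing {ρ A : ℝ} (hρ0 : 0 ≤ ρ) (hρ1 : ρ < 1) (P : Cell → Prop) (F : Cell → ℝ) (s1 : ℤ)
    (hdeep : ∀ R, P R → s1 ≤ R.depth → F R ≤ A * R.len / (1 - ρ))
    (hstep : ∀ R, P R → ∃ ch : Finset Cell, (∀ R' ∈ ch, R' < R ∧ P R') ∧ ∑ R' ∈ ch, R'.len ≤ ρ * R.len ∧
      F R ≤ A * R.len + ∑ R' ∈ ch, F R') (hA : 0 ≤ A) :
    ∀ J, P J → F J ≤ A * J.len / (1 - ρ) := by
  have hρ : 0 < 1 - ρ := by linarith
  refine cell_induction_up s1 (P := fun J => P J → F J ≤ A * J.len / (1 - ρ)) (fun R hd hP => hdeep R hP hd) ?_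
  intro R ih hP
  obtain ⟨ch, h1, h2, h3⟩ := hstep R hP
  have h4 : ∑ R' ∈ ch, F R' ≤ ∑ R' ∈ ch, A * R'.len / (1 - ρ) :=
    Finset.sum_le_sum fun R' hR' => ih R' (h1 R' hR').1 (h1 R' hR').2
  have h5 : ∑ R' ∈ ch, A * R'.len / (1 - ρ) = A / (1 - ρ) * ∑ R' ∈ ch, R'.len := by
    rw [Finset.mul_sum]
    refine Finset.sum_congr rfl fun R' _ => ?_
    ring
  have h6 : A / (1 - ρ) * ∑ R' ∈ ch, R'.len ≤ A / (1 - ρ) * (ρ * R.len) :=
    mul_le_mul_of_nonneg_left h2 (div_nonneg hA hρ.le)
  have h7 : A * R.len + A / (1 - ρ) * (ρ * R.len) = A * R.len / (1 - ρ) := by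
    field_simp
    ring
  linarith

open Classical in
/-- **Restarts for a sum over a finite set of cells.**  At every admissible root `R` there are stops (admissible as new roots) such that the
retained cells below `R` contribute at most `A |R|`.  Then all cells below `J` contribute at most `A |J| / (1 - ρ)`. -/
theorem cell_restart_sum {ρ A : ℝ} (hρ0 : 0 ≤ ρ) (hρ1 : ρ < 1) (hA : 0 ≤ A) (P : Cell → Prop) (S : Finset Cell)
    (c : Cell → ℝ)
    (hstep : ∀ R, P R → ∃ stops : Finset Cell, CellStops R ρ stops ∧ (∀ K ∈ stops, P K) ∧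
      ∑ I ∈ S.filter (fun I => I ≤ R ∧ cellRetained stops I), c I ≤ A * R.len) :
    ∀ J, P J → ∑ I ∈ S.filter (fun I => I ≤ J), c I ≤ A * J.len / (1 - ρ) := by
  have hρ : 0 < 1 - ρ := by linarith
  obtain ⟨s1, hs1⟩ : ∃ s1 : ℤ, ∀ I ∈ S, I.depth < s1 := by
    obtain ⟨b, hb⟩ := (S.image Cell.depth).bddAbove
    refine ⟨b + 1, fun I hI => ?_⟩
    have := hb (Finset.mem_coe.2 (Finset.mem_image_of_mem Cell.depth hI))
    omega
  refine cell_attempt_packing hρ0 hρ1 P (fun R => ∑ I ∈ S.filter (fun I => I ≤ R), c I) s1 ?_ ?_ hA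
  · intro R _ hd
    have he : S.filter (fun I => I ≤ R) = ∅ := by
      refine Finset.filter_eq_empty_iff.2 fun I hI hIR => ?_
      have h1 := hs1 I hI
      have h2 := cell_depth_le_of_le hIR
      omega
    simp only [he, Finset.sum_empty]
    exact div_nonneg (mul_nonneg hA (cell_len_nonneg R)) hρ.le
  · intro R hP
    obtain ⟨stops, h1, h2, h3⟩ := hstep R hP
    refine ⟨stops, fun K hK => ⟨h1.lt K hK, h2 K hK⟩, h1.len, ?_⟩
    rw [cell_sum_stops (fun K hK => (h1.lt K hK).le) h1.anti S c]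
    exact add_le_add h3 le_rfl

end attempt

end Claimed.Agent.R258
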